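import Vale.Agent.P272.K.C2.Wirt
import Vale.Agent.P299.H570.Mean
import Mathlib.Analysis.Calculus.BumpFunction.FiniteDimension
import Mathlib.Analysis.SpecialFunctions.SmoothTransition
import Mathlib.Analysis.Complex.Schwarz

/-!
# P253Z, block HJ: the model in `ℂⁿ`

A weight with a regularised logarithmic pole, two cut-off functions, and the estimate of the first jet
of a holomorphic function by its `L²` norm.
-/

open scoped ContDiff ENNReal Topology ComplexConjugate ComplexOrder Matrix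
open MeasureTheory Set Metric Filter
open Vale.Agent.P272.K (Cm dz dzb cHess)
open Vale.Agent.P272.K.C2

noncomputable section

namespace Vale.Agent.P253Z.HJ

variable {n : ℕ}

theorem two_le : (2 : WithTop ℕ∞) ≤ (∞ : WithTop ℕ∞) := WithTop.coe_le_coe.2 (le_top : (2 : ℕ∞) ≤ ⊤)

/-- the square of the Euclidean norm -/
def nsq (z : Cm n) : ℝ := ∑ j, ‖z j‖ ^ 2

theorem nsq_nonneg (z : Cm n) : 0 ≤ nsq z := Finset.sum_nonneg fun _ _ => sq_nonneg _

theorem nsq_le (z : Cm n) : nsq z ≤ n * ‖z‖ ^ 2 := by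
  calc nsq z ≤ ∑ _j : Fin n, ‖z‖ ^ 2 :=
        Finset.sum_le_sum fun j _ => pow_le_pow_left₀ (norm_nonneg _) (norm_le_pi_norm z j) 2
    _ = n * ‖z‖ ^ 2 := by simp

theorem le_nsq (z : Cm n) : ‖z‖ ^ 2 ≤ nsq z := by
  have h : ‖z‖ ≤ √(nsq z) := by
    refine (pi_norm_le_iff_of_nonneg (Real.sqrt_nonneg _)).2 fun j => ?_
    refine Real.le_sqrt_of_sq_le ?_
    exact Finset.single_le_sum (f := fun j => ‖z j‖ ^ 2) (fun _ _ => sq_nonneg _) (Finset.mem_univ j)
  calc ‖z‖ ^ 2 ≤ √(nsq z) ^ 2 := pow_le_pow_left₀ (norm_nonneg _) h 2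
    _ = nsq z := Real.sq_sqrt (nsq_nonneg z)

theorem nsq_coe (z : Cm n) : (nsq z : ℂ) = ∑ i, z i * conj (z i) := by
  simp only [nsq, Complex.ofReal_sum, Complex.mul_conj, Complex.normSq_eq_norm_sq]

theorem contDiff_nsq : ContDiff ℝ ∞ (nsq : Cm n → ℝ) :=
  ContDiff.sum fun i _ => (contDiff_apply ℝ ℂ i).norm_sq ℝ

theorem dzb_hol {f : Cm n → ℂ} {z : Cm n} (h : DifferentiableAt ℂ f z) (i : Fin n) :
    dzb i f z = 0 := by
  unfold dzb
  rw [h.fderiv_restrictScalars ℝ]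
  have : (Pi.single i Complex.I : Cm n) = Complex.I • Pi.single i 1 := by
    rw [← Pi.single_smul]; simp
  simp only [ContinuousLinearMap.coe_restrictScalars']
  rw [this, map_smul, smul_eq_mul, ← mul_assoc, Complex.I_mul_I]; ring

theorem dz_coord (z : Cm n) (i k : Fin n) :
    dz i (fun y : Cm n => y k) z = if k = i then 1 else 0 := by
  have h : fderiv ℝ (fun y : Cm n => y k) z = ContinuousLinearMap.proj k :=
    (ContinuousLinearMap.proj (R := ℝ) (φ := fun _ : Fin n => ℂ) k).fderiv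
  unfold dz
  rw [h]
  by_cases hk : k = i
  · subst hk
    simp only [ContinuousLinearMap.proj_apply, Pi.single_eq_same, Complex.I_mul_I, if_true]
    ring
  · simp [hk]

theorem dz_nsq (c : ℝ) (z : Cm n) (i : Fin n) :
    dz i (fun y : Cm n => ((nsq y + c : ℝ) : ℂ)) z = conj (z i) := by
  have d : ∀ k, DifferentiableAt ℝ (fun y : Cm n => y k) z := fun k => differentiableAt_apply k z
  have d0 : ∀ k, dzb i (fun y : Cm n => y k) z = 0 := fun k =>
    dzb_hol (differentiableAt_apply k z) i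
  have e : (fun y : Cm n => ((nsq y + c : ℝ) : ℂ)) = fun y => (∑ k, y k * conj (y k)) + (c : ℂ) := by
    funext y; rw [Complex.ofReal_add, nsq_coe]
  have d2 : ∀ k, DifferentiableAt ℝ (fun y : Cm n => y k * conj (y k)) z := fun k =>
    (d k).mul (differentiableAt_conj (d k))
  rw [e, dz_add i (DifferentiableAt.fun_sum fun k _ => d2 k)
    (differentiableAt_const _), dz_const, add_zero,
    dz_sum (F := fun k y => y k * conj (y k)) i _ fun k _ => d2 k]
  simp [fun k => dz_mul i (d k) (differentiableAt_conj (d k)), fun k => dz_conj i (d k), dz_coord, d0]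

theorem dzb_nsq (c : ℝ) (z : Cm n) (i : Fin n) :
    dzb i (fun y : Cm n => ((nsq y + c : ℝ) : ℂ)) z = z i := by
  rw [dzb_real i (u := fun y => nsq y + c)
    ((contDiff_nsq.differentiable (by simp) z).add_const c), dz_nsq]
  simp

theorem cHess_nsq (c : ℝ) (z : Cm n) : cHess (fun y : Cm n => nsq y + c) z = 1 := by
  ext j k
  rw [cHess_apply, show dzb k (fun y : Cm n => ((nsq y + c : ℝ) : ℂ)) = fun y => y k from
    funext fun y => dzb_nsq c y k, dz_coord, Matrix.one_apply]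
  simp only [eq_comm]

/-- the matrix `α δ_jk + β conj (a_j) a_k` is nonnegative if its eigenvalues are -/
theorem rad_psd {α β : ℝ} (a : Cm n) (h1 : 0 ≤ α) (h2 : 0 ≤ α + β * nsq a) :
    ((α : ℂ) • (1 : Matrix (Fin n) (Fin n) ℂ) +
      (β : ℂ) • Matrix.of fun j k => conj (a j) * a k).PosSemidef := by
  refine Matrix.PosSemidef.of_dotProduct_mulVec_nonneg ?_ fun x => ?_
  · ext j k
    by_cases h : j = k
    · subst h; simp [mul_comm]
    · simp [h, Ne.symm h, mul_comm]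
  · have e : star x ⬝ᵥ (((α : ℂ) • (1 : Matrix (Fin n) (Fin n) ℂ) +
        (β : ℂ) • Matrix.of fun j k => conj (a j) * a k) *ᵥ x) =
        ((α * nsq x + β * ‖∑ k, a k * x k‖ ^ 2 : ℝ) : ℂ) := by
      have e1 : ((‖∑ k, a k * x k‖ ^ 2 : ℝ) : ℂ) =
          (∑ j, conj (x j) * conj (a j)) * ∑ k, a k * x k := by
        rw [← Complex.normSq_eq_norm_sq, Complex.normSq_eq_conj_mul_self, map_sum]
        simp only [map_mul, mul_comm]
      rw [Complex.ofReal_add, Complex.ofReal_mul, Complex.ofReal_mul, nsq_coe, e1,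
        Matrix.add_mulVec, Matrix.smul_mulVec, Matrix.smul_mulVec, Matrix.one_mulVec,
        dotProduct_add, dotProduct_smul, dotProduct_smul, smul_eq_mul, smul_eq_mul,
        Finset.sum_mul_sum]
      congr 2
      · simp only [dotProduct, Pi.star_apply, Complex.star_def, mul_comm]
      · simp only [dotProduct, Matrix.mulVec, Pi.star_apply, Complex.star_def, Matrix.of_apply,
          Finset.mul_sum]
        exact Finset.sum_congr rfl fun j _ => Finset.sum_congr rfl fun k _ => by ring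
    rw [e, Complex.zero_le_real]
    have cs : ‖∑ k, a k * x k‖ ^ 2 ≤ nsq a * nsq x := by
      have h3 : ‖∑ k, a k * x k‖ ≤ ∑ k, ‖a k‖ * ‖x k‖ :=
        (norm_sum_le _ _).trans (le_of_eq (Finset.sum_congr rfl fun k _ => norm_mul _ _))
      exact (pow_le_pow_left₀ (norm_nonneg _) h3 2).trans
        (Finset.sum_mul_sq_le_sq_mul_sq _ _ _)
    have hx := nsq_nonneg x
    rcases le_total 0 β with hβ | hβ
    · positivity
    · nlinarith [mul_nonneg h2 hx, mul_le_mul_of_nonpos_left cs hβ]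

/-- the profile of the weight -/
theorem exists_G (p R : ℝ) (hp : 0 ≤ p) : ∃ (G G1 G2 : ℝ → ℝ) (K : ℝ), 0 ≤ K ∧
    (∀ r, 0 < r → ContDiffAt ℝ ∞ G r ∧ HasDerivAt G (G1 r) r ∧ HasDerivAt G1 (G2 r) r) ∧
    (∀ r t, 0 < r → r ≤ R → 0 ≤ t → t ≤ r → 0 ≤ G1 r + K ∧ 0 ≤ G1 r + K + G2 r * t) ∧
    (∀ r, 1 ≤ r → G r = 0) ∧ (∀ r, 0 < r → G r ≤ 0) ∧
    (∀ r, 0 < r → r ≤ 1 → p * Real.log r ≤ G r) ∧ ∀ r, r ≤ 1 / 2 → G r = p * Real.log r := by
  set G : ℝ → ℝ := fun r => p * (Real.smoothTransition (2 - 2 * r) * Real.log r) with hG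
  have sm : ∀ r, 0 < r → ContDiffAt ℝ ∞ G r := fun r hr =>
    contDiffAt_const.mul ((Real.smoothTransition.contDiffAt.comp r (by fun_prop)).mul
      (Real.contDiffAt_log.2 hr.ne'))
  have sm1 : ∀ r, 0 < r → ContDiffAt ℝ ∞ (deriv G) r := fun r hr =>
    ((sm r hr).fderiv_right (m := ∞) (by simp)).clm_apply contDiffAt_const
  have sm2 : ∀ r, 0 < r → ContDiffAt ℝ ∞ (deriv (deriv G)) r := fun r hr =>
    ((sm1 r hr).fderiv_right (m := ∞) (by simp)).clm_apply contDiffAt_const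
  have lo : ∀ r, r ≤ 1 / 2 → G r = p * Real.log r := fun r hr => by
    simp only [hG]
    rw [Real.smoothTransition.one_of_one_le (by linarith), one_mul]
  have hi : ∀ r, 1 ≤ r → G r = 0 := fun r hr => by
    simp only [hG]
    rw [Real.smoothTransition.zero_of_nonpos (by linarith), zero_mul, mul_zero]
  have d1 : ∀ r, 0 < r → r < 1 / 2 → deriv G r = p * r⁻¹ := fun r hr h => by
    have : G =ᶠ[𝓝 r] fun s => p * Real.log s := by
      filter_upwards [Iio_mem_nhds h] with s hs using lo s (le_of_lt hs)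
    rw [this.deriv_eq]
    exact ((Real.hasDerivAt_log hr.ne').const_mul p).deriv
  have d2 : ∀ r, 0 < r → r < 1 / 2 → deriv (deriv G) r = p * -(r ^ 2)⁻¹ := fun r hr h => by
    have : deriv G =ᶠ[𝓝 r] fun s => p * s⁻¹ := by
      filter_upwards [Ioo_mem_nhds hr h] with s hs using d1 s hs.1 hs.2
    rw [this.deriv_eq]
    exact ((hasDerivAt_inv hr.ne').const_mul p).deriv
  obtain ⟨K1, hK1⟩ := (isCompact_Icc (a := (1 / 2 : ℝ)) (b := R)).exists_bound_of_continuousOn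
    (f := deriv G) fun r hr => (sm1 r (by linarith [hr.1])).continuousAt.continuousWithinAt
  obtain ⟨K2, hK2⟩ := (isCompact_Icc (a := (1 / 2 : ℝ)) (b := R)).exists_bound_of_continuousOn
    (f := deriv (deriv G)) fun r hr => (sm2 r (by linarith [hr.1])).continuousAt.continuousWithinAt
  refine ⟨G, deriv G, deriv (deriv G), |K1| + |K2| * |R|, by positivity, fun r hr =>
    ⟨sm r hr, ((sm r hr).differentiableAt (by simp)).hasDerivAt,
      ((sm1 r hr).differentiableAt (by simp)).hasDerivAt⟩, fun r t hr hR ht htr => ?_, hi,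
    fun r hr => ?_, fun r hr h1 => ?_, lo⟩
  · have k0 : 0 ≤ |K2| * |R| := by positivity
    have k1 := abs_nonneg K1
    rcases lt_or_ge r (1 / 2) with h | h
    · rw [d1 r hr h, d2 r hr h]
      have e : p * r⁻¹ + p * -(r ^ 2)⁻¹ * t = p * ((r - t) / r ^ 2) := by field_simp; ring
      have e1 : 0 ≤ p * ((r - t) / r ^ 2) := mul_nonneg hp (div_nonneg (by linarith) (sq_nonneg _))
      have e2 : 0 ≤ p * r⁻¹ := by positivity
      constructor <;> linarith
    · have a1 := abs_le.1 ((hK1 r ⟨h, hR⟩).trans (le_abs_self K1))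
      have a2 : |deriv (deriv G) r * t| ≤ |K2| * |R| := by
        rw [abs_mul]
        exact mul_le_mul ((hK2 r ⟨h, hR⟩).trans (le_abs_self K2))
          ((abs_of_nonneg ht).le.trans (htr.trans (hR.trans (le_abs_self R)))) (abs_nonneg _)
          (abs_nonneg _)
      have a3 := abs_le.1 a2
      constructor <;> linarith [a1.1, a3.1]
  · rcases le_total r 1 with h | h
    · exact mul_nonpos_of_nonneg_of_nonpos hp (mul_nonpos_of_nonneg_of_nonpos
        (Real.smoothTransition.nonneg _) (Real.log_nonpos hr.le h))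
    · exact (hi r h).le
  · refine mul_le_mul_of_nonneg_left ?_ hp
    have := Real.log_nonpos hr.le h1
    nlinarith [Real.smoothTransition.le_one (2 - 2 * r)]

/-- the weight with a regularised logarithmic pole -/
theorem exists_tau (n : ℕ) : ∃ Λ : ℝ, 0 ≤ Λ ∧ ∀ ε : ℝ, 0 < ε → (4 * n + 1) * ε ^ 2 ≤ 1 / 2 →
    ∃ τ : Cm n → ℝ, ContDiff ℝ ∞ τ ∧ (∀ z, 1 ≤ ‖z‖ → τ z = 0) ∧ (∀ z, τ z ≤ 0) ∧
      (∀ z, ‖z‖ ≤ 2 → (cHess τ z + (Λ : ℂ) • 1).PosSemidef) ∧
      (∀ z, 1 / 2 ≤ ‖z‖ → (1 / 4 : ℝ) ^ (n + 2) ≤ Real.exp (τ z)) ∧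
      ∀ z, ‖z‖ ≤ 2 * ε → Real.exp (τ z) ≤ ((4 * n + 1) * ε ^ 2) ^ (n + 2) := by
  obtain ⟨G, G1, G2, K, hK, hd, hp, hi, hneg, hlo, heq⟩ :=
    exists_G ((n + 2 : ℕ) : ℝ) (4 * n + 1) (Nat.cast_nonneg _)
  refine ⟨K, hK, fun ε hε hε2 => ?_⟩
  have hn : (0 : ℝ) ≤ n := Nat.cast_nonneg n
  have e2 : 0 < ε ^ 2 := by positivity
  have pos : ∀ z : Cm n, 0 < nsq z + ε ^ 2 := fun z => by linarith [nsq_nonneg z]
  have smu : ContDiff ℝ ∞ fun z : Cm n => nsq z + ε ^ 2 := contDiff_nsq.add contDiff_const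
  have ex : ∀ r : ℝ, 0 < r → Real.exp (((n + 2 : ℕ) : ℝ) * Real.log r) = r ^ (n + 2) :=
    fun r hr => by rw [Real.exp_nat_mul, Real.exp_log hr]
  refine ⟨fun z => G (nsq z + ε ^ 2), contDiff_iff_contDiffAt.2 fun z =>
    (hd _ (pos z)).1.comp z smu.contDiffAt, fun z hz => hi _ ?_, fun z => hneg _ (pos z),
    fun z hz => ?_, fun z hz => ?_, fun z hz => ?_⟩
  · nlinarith [le_nsq z]
  · have h1 : nsq z ≤ 4 * n := by
      have := nsq_le z
      have h4 : ‖z‖ ^ 2 ≤ 4 := by nlinarith [norm_nonneg z]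
      nlinarith
    obtain ⟨a1, a2⟩ := hp (nsq z + ε ^ 2) (nsq z) (pos z) (by nlinarith) (nsq_nonneg z)
      (by linarith)
    have := rad_psd z a1 a2
    convert this using 1
    ext j k
    rw [Matrix.add_apply, cHess_comp (ψ := G) (ψ₁ := G1) (ψ₂ := G2 (nsq z + ε ^ 2))
      (u := fun y => nsq y + ε ^ 2)
      (by filter_upwards [Ioi_mem_nhds (pos z)] with s hs using (hd s hs).2.1)
      (hd _ (pos z)).2.2 (smu.contDiffAt.of_le two_le), cHess_nsq, dz_nsq, dzb_nsq]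
    simp only [Matrix.add_apply, Matrix.smul_apply, Matrix.of_apply, smul_eq_mul]
    push_cast
    ring
  · have h1 : 1 / 4 ≤ nsq z + ε ^ 2 := by nlinarith [le_nsq z]
    rcases le_total (nsq z + ε ^ 2) 1 with h | h
    · calc (1 / 4 : ℝ) ^ (n + 2) ≤ (nsq z + ε ^ 2) ^ (n + 2) := by gcongr
        _ = _ := (ex _ (pos z)).symm
        _ ≤ _ := Real.exp_le_exp.2 (hlo _ (pos z) h)
    · simp only [hi _ h, Real.exp_zero]
      exact pow_le_one₀ (by norm_num) (by norm_num)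
  · have h1 : nsq z + ε ^ 2 ≤ (4 * n + 1) * ε ^ 2 := by
      have := nsq_le z
      have h4 : ‖z‖ ^ 2 ≤ 4 * ε ^ 2 := by nlinarith [norm_nonneg z]
      nlinarith
    simp only [heq _ (h1.trans hε2), ex _ (pos z)]
    exact pow_le_pow_left₀ (pos z).le h1 _

/-- the two cut-off functions -/
theorem exists_cut (n : ℕ) : ∃ (A : ℝ) (χ₀ χ₁ : Cm n → ℝ), 0 ≤ A ∧ ContDiff ℝ ∞ χ₀ ∧
    ContDiff ℝ ∞ χ₁ ∧ (∀ z, |χ₀ z| ≤ 1) ∧ (∀ z, |χ₁ z| ≤ 1) ∧ (∀ z, ‖z‖ ≤ 1 / 2 → χ₀ z = 1) ∧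
    (∀ z, 3 / 2 ≤ ‖z‖ → χ₀ z = 0) ∧ (∀ z, 3 / 2 ≤ ‖z‖ → χ₁ z = 0) ∧
    ∀ τ : Cm n → ℝ, (∀ z, 1 / 2 ≤ ‖z‖ → (1 / 4 : ℝ) ^ (n + 2) ≤ Real.exp (τ z)) → ∀ z,
      4 * nsq (fun j => dzb j (fun y => (χ₀ y : ℂ)) z) ≤ A * χ₁ z ^ 2 * Real.exp (τ z) := by
  let f₀ : ContDiffBump (0 : Cm n) := ⟨1 / 2, 1, by norm_num, by norm_num⟩
  let f₁ : ContDiffBump (0 : Cm n) := ⟨1, 3 / 2, by norm_num, by norm_num⟩
  have s0 : ContDiff ℝ ∞ f₀ := f₀.contDiff
  have c0 : Continuous fun z : Cm n => nsq (fun j => dzb j (fun y => (f₀ y : ℂ)) z) :=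
    contDiff_nsq.continuous.comp (continuous_pi fun j => continuous_iff_continuousAt.2 fun z =>
      (contDiffAt_dzb (m := 0) j (contDiffAt_ofReal s0.contDiffAt) (by simp)).continuousAt)
  obtain ⟨D, hD⟩ := (isCompact_closedBall (0 : Cm n) 1).exists_bound_of_continuousOn c0.continuousOn
  refine ⟨4 * |D| * 4 ^ (n + 2), f₀, f₁, by positivity, s0, f₁.contDiff,
    fun z => by rw [abs_of_nonneg f₀.nonneg]; exact f₀.le_one,
    fun z => by rw [abs_of_nonneg f₁.nonneg]; exact f₁.le_one,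
    fun z hz => f₀.one_of_mem_closedBall (by simpa [f₀] using hz),
    fun z hz => f₀.zero_of_le_dist (by simp only [f₀, dist_zero_right]; linarith),
    fun z hz => f₁.zero_of_le_dist (by simpa [f₁] using hz), fun τ hτ z => ?_⟩
  have zero : ∀ c : ℝ, (∀ᶠ y in 𝓝 z, f₀ y = c) →
      4 * nsq (fun j => dzb j (fun y => (f₀ y : ℂ)) z) ≤
        4 * |D| * 4 ^ (n + 2) * f₁ z ^ 2 * Real.exp (τ z) := fun c hc => by
    have : ∀ j, dzb j (fun y => (f₀ y : ℂ)) z = 0 := fun j => by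
      rw [dzb_congr j (g := fun _ => (c : ℂ)) (by filter_upwards [hc] with y hy; rw [hy]), dzb_const]
    simp only [nsq, this, norm_zero, ne_eq, OfNat.ofNat_ne_zero, not_false_eq_true, zero_pow,
      Finset.sum_const_zero, mul_zero]
    positivity
  rcases lt_or_ge ‖z‖ (1 / 2) with h1 | h1
  · refine zero 1 ?_
    filter_upwards [isOpen_ball.mem_nhds (mem_ball_zero_iff.2 h1)] with y hy
    exact f₀.one_of_mem_closedBall (ball_subset_closedBall hy)
  rcases lt_or_ge 1 ‖z‖ with h2 | h2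
  · refine zero 0 ?_
    filter_upwards [(isOpen_lt continuous_const continuous_norm).mem_nhds h2] with y hy
    exact f₀.zero_of_le_dist (by simp only [f₀, dist_zero_right]; exact le_of_lt hy)
  have a1 : f₁ z = 1 := f₁.one_of_mem_closedBall (by simpa [f₁] using h2)
  have a2 : nsq (fun j => dzb j (fun y => (f₀ y : ℂ)) z) ≤ |D| :=
    (le_abs_self _).trans ((hD z (mem_closedBall_zero_iff.2 h2)).trans (le_abs_self D))
  have a3 : (1 : ℝ) ≤ 4 ^ (n + 2) * Real.exp (τ z) := by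
    calc (1 : ℝ) = 4 ^ (n + 2) * (1 / 4) ^ (n + 2) := by rw [← mul_pow]; norm_num
      _ ≤ _ := by gcongr; exact hτ z h1
  rw [a1, one_pow, mul_one, mul_assoc]
  nlinarith [abs_nonneg D]

/-- the first jet of a holomorphic function with a small `L²` norm -/
theorem jet (n : ℕ) {Q η : ℝ} (hQ : 0 ≤ Q) (hη : 0 < η) : ∃ ε : ℝ, 0 < ε ∧ ε ≤ 1 / 4 ∧
    (4 * n + 1) * ε ^ 2 ≤ 1 / 2 ∧ ∀ v : Cm n → ℂ, DifferentiableOn ℂ v (ball 0 (2 * ε)) →
      ∫⁻ z in closedBall 0 (2 * ε), ENNReal.ofReal (‖v z‖ ^ 2) ≤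
        ENNReal.ofReal (Q * ((4 * n + 1) * ε ^ 2) ^ (n + 2)) →
      (∀ z ∈ closedBall (0 : Cm n) ε, ‖v z‖ ≤ η) ∧ ‖fderiv ℂ v 0‖ ≤ η := by
  have hn : (0 : ℝ) ≤ n := Nat.cast_nonneg n
  set V := (volume (ball (0 : Cm n) 1)).toReal with hV
  have hVt : volume (ball (0 : Cm n) 1) ≠ ⊤ := measure_ball_lt_top.ne
  have hV0 : 0 < V := ENNReal.toReal_pos (measure_ball_pos _ _ one_pos).ne' hVt
  set P := Q * (4 * n + 1) ^ (n + 2) / V + 1 with hP
  have hP1 : 1 ≤ P := le_add_of_nonneg_left (by positivity)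
  set ε := min (1 / (4 * n + 4) : ℝ) (η / (2 * P)) with hε
  have e0 : 0 < ε := lt_min (by positivity) (by positivity)
  have e1 : ε * (4 * n + 4) ≤ 1 := (le_div_iff₀ (by positivity)).1 (min_le_left _ _)
  have e2 : ε * (2 * P) ≤ η := (le_div_iff₀ (by positivity)).1 (min_le_right _ _)
  have e3 : ε ≤ 1 / 4 := by nlinarith
  refine ⟨ε, e0, e3, by nlinarith, fun v hv hI => ?_⟩
  have key : ∀ z ∈ closedBall (0 : Cm n) ε, ‖v z‖ ≤ P * ε ^ 2 := fun z hz => by
    have hs : ball z ε ⊆ ball 0 (2 * ε) := ball_subset_ball' (by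
      rw [mem_closedBall] at hz; linarith)
    have h1 := (Vale.Agent.P299.H570.mean_value1 e0 (hv.mono hs)).trans
      ((lintegral_mono_set (hs.trans ball_subset_closedBall)).trans hI)
    rw [← ENNReal.ofReal_toReal hVt, ← hV, ← ENNReal.ofReal_mul (by positivity),
      ← ENNReal.ofReal_mul (by positivity), ENNReal.ofReal_le_ofReal_iff (by positivity)] at h1
    have h2 : ‖v z‖ ^ 2 ≤ Q * (4 * n + 1) ^ (n + 2) / V * (ε ^ 2) ^ 2 := by
      rw [div_mul_eq_mul_div, le_div_iff₀ hV0]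
      refine le_of_mul_le_mul_right ?_ (show 0 < ε ^ (2 * n) by positivity)
      calc ‖v z‖ ^ 2 * V * ε ^ (2 * n) = ‖v z‖ ^ 2 * (ε ^ (2 * n) * V) := by ring
        _ ≤ _ := h1
        _ = _ := by rw [mul_pow]; ring
    refine le_of_sq_le_sq ?_ (by positivity)
    rw [mul_pow]
    refine h2.trans (mul_le_mul_of_nonneg_right ?_ (by positivity))
    nlinarith
  refine ⟨fun z hz => (key z hz).trans (by nlinarith), ?_⟩
  have hm : MapsTo v (ball 0 ε) (closedBall (v 0) (2 * P * ε ^ 2)) := fun z hz => by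
    rw [mem_closedBall, dist_eq_norm]
    have := norm_sub_le (v z) (v 0)
    linarith [key z (ball_subset_closedBall hz), key 0 (mem_closedBall_self e0.le)]
  have := Complex.norm_fderiv_le_div_of_mapsTo_ball
    (hv.mono (ball_subset_ball (by linarith))) hm e0
  refine this.trans ?_
  rw [div_le_iff₀ e0]
  nlinarith

end Vale.Agent.P253Z.HJ
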