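import Vale.Agent.P253Z.Spec
import Vale.Agent.P253Z.HJ.Mod

/-!
# P253Z, block HJ: sections supported in finitely many disjoint coordinate balls
-/

open scoped Manifold ContDiff Bundle ENNReal Topology ComplexConjugate ComplexOrder
open Bundle IsManifold MeasureTheory Set Metric Filter Vale.Agent.P253.Mfd
open Vale.Agent.P272.K (Cm dz dzb cHess jacM Chart)
open Vale.Agent.P272.K.C2

noncomputable section

namespace Vale.Agent.P253Z.HJ

variable {n : ℕ} {M : Type} [MetricSpace M] [ChartedSpace (Cm n) M]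

omit [ChartedSpace (Cm n) M] in
theorem isCompact_piece (e : Chart n M) {r : ℝ} (h : closedBall 0 r ⊆ e.target) :
    IsCompact (e.symm '' closedBall (0 : Cm n) r) :=
  (isCompact_closedBall _ _).image_of_continuousOn (e.continuousOn_symm.mono h)

/-- a section which vanishes near a point has a vanishing coefficient near that point -/
theorem co_zero {k : ℤ} {s : M → ℂ} {e : Chart n M} {x : M} (hx : x ∈ e.source)
    (h : ∀ᶠ y in 𝓝 x, s y = 0) : co k s e =ᶠ[𝓝 (e x)] fun _ => 0 := by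
  have h1 : Tendsto e.symm (𝓝 (e x)) (𝓝 x) := by
    have := e.continuousAt_symm (e.map_source hx)
    rwa [ContinuousAt, e.left_inv hx] at this
  filter_upwards [h1.eventually h] with y hy
  simp only [co, hy, mul_zero]

theorem co_sum {N : ℕ} (k : ℤ) (s : Fin N → M → ℂ) (e : Chart n M) (z : Cm n) :
    co k (fun x => ∑ i, s i x) e z = ∑ i, co k (s i) e z := by
  simp only [co, Finset.mul_sum]

theorem co_sub (k : ℤ) (s t : M → ℂ) (e : Chart n M) (z : Cm n) :
    co k (s - t) e z = co k s e z - co k t e z := by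
  simp only [co, Pi.sub_apply, mul_sub]

theorem co_fun (s : M → ℂ) (e : Chart n M) (z : Cm n) : co 0 s e z = s (e.symm z) := by
  simp only [co, zpow_zero, one_mul]

theorem smSec_of_isSec {k : ℤ} {s : M → ℂ} (h : IsSec n k s) : SmSec n k s :=
  fun e he z hz => ((h e he z hz).contDiffAt (n := ∞)).restrict_scalars ℝ

theorem smSec_sub {k : ℤ} {s t : M → ℂ} (hs : SmSec n k s) (ht : SmSec n k t) :
    SmSec n k (s - t) := fun e he z hz => by
  have : co k (s - t) e = fun z => co k s e z - co k t e z := funext (co_sub k s t e)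
  rw [this]
  exact (hs e he z hz).sub (ht e he z hz)

/-- one chart -/
theorem glue1 (a : B1a n M) (k : ℤ) {e : Chart n M} (he : Hc e) (hs : closedBall 0 2 ⊆ e.target)
    {σ : Cm n → ℂ} (hσ : ∀ z ∈ closedBall (0 : Cm n) 2, ContDiffAt ℝ ∞ σ z)
    (h0 : ∀ z, 3 / 2 ≤ ‖z‖ → σ z = 0) : ∃ s : M → ℂ, SmSec n k s ∧
      (∀ z ∈ e.target, co k s e z = σ z) ∧ ∀ x ∉ e.symm '' closedBall 0 (3 / 2), s x = 0 := by
  obtain ⟨s, h1, h2⟩ := a.ext k e he σ
  have sub : closedBall (0 : Cm n) (3 / 2) ⊆ closedBall 0 2 := closedBall_subset_closedBall (by norm_num)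
  have h3 : ∀ x ∉ e.symm '' closedBall 0 (3 / 2), s x = 0 := fun x hx => by
    by_cases hxe : x ∈ e.source
    · have h4 : 3 / 2 ≤ ‖e x‖ := by
        by_contra h
        exact hx ⟨e x, mem_closedBall_zero_iff.2 (not_le.1 h).le, e.left_inv hxe⟩
      have h5 := h2 (e x) (e.map_source hxe)
      rw [h0 _ h4, co, e.left_inv hxe] at h5
      exact (mul_eq_zero.1 h5).resolve_left
        (zpow_ne_zero _ (a.jac_ne e _ he (a.chart x) x hxe (mem_chart_source _ x)))
    · exact h1 x hxe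
  refine ⟨s, a.smSec_loc k s fun x => ?_, h2, h3⟩
  by_cases hx : x ∈ e.symm '' closedBall 0 (3 / 2)
  · obtain ⟨z, hz, rfl⟩ := hx
    have hzt := hs (sub hz)
    refine ⟨e, he, e.map_target hzt, ?_⟩
    rw [e.right_inv hzt]
    refine (hσ z (sub hz)).congr_of_eventuallyEq ?_
    filter_upwards [e.open_target.mem_nhds hzt] with y hy using h2 y hy
  · refine ⟨_, a.chart x, mem_chart_source _ x, ?_⟩
    refine (contDiffAt_const (c := (0 : ℂ))).congr_of_eventuallyEq (co_zero (mem_chart_source _ x) ?_)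
    filter_upwards [(isCompact_piece e (sub.trans hs)).isClosed.isOpen_compl.mem_nhds hx] with y hy
    exact h3 y hy

variable [RiemannianBundle (fun x : M => TangentSpace 𝓘(ℝ, Cm n) x)] [MeasurableSpace M]
  [BorelSpace M] {μ : Measure M}

/-- finitely many charts -/
theorem glue (a : B1a n M) (b : B1b n M) (v : B3 n μ) (k : ℤ) {N : ℕ} {e : Fin N → Chart n M}
    (he : ∀ i, Hc (e i)) (hs : ∀ i, closedBall 0 2 ⊆ (e i).target)
    (hd : ∀ i j, i ≠ j → Disjoint ((e i).symm '' closedBall 0 2) ((e j).symm '' closedBall 0 2))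
    {σ : Fin N → Cm n → ℂ} (hσ : ∀ i, ∀ z ∈ closedBall (0 : Cm n) 2, ContDiffAt ℝ ∞ (σ i) z)
    (h0 : ∀ i z, 3 / 2 ≤ ‖z‖ → σ i z = 0) : ∃ s : M → ℂ, SmSec n k s ∧
      (∀ i, ∀ z ∈ closedBall (0 : Cm n) 2, co k s (e i) z = σ i z) ∧
      (∀ x, (∀ i, x ∉ (e i).symm '' closedBall 0 (3 / 2)) → ∀ᶠ y in 𝓝 x, s y = 0) ∧
      ∀ (ψ : M → ℝ) (c : ℝ), Continuous ψ → 0 ≤ c → (∀ i, ∀ z ∈ closedBall (0 : Cm n) 2,
        ‖σ i z‖ ^ 2 * Real.exp (-wt k ψ (e i) z) ≤ c) → L2 n μ k ψ s ≤
          ENNReal.ofReal (N * (c * (volume (closedBall (0 : Cm n) 2)).toReal)) := by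
  choose s h1 h2 h3 using fun i => glue1 a k (he i) (hs i) (hσ i) (h0 i)
  have sub : closedBall (0 : Cm n) (3 / 2) ⊆ closedBall 0 2 := closedBall_subset_closedBall (by norm_num)
  have h4 : ∀ i, ∀ x ∉ (e i).symm '' closedBall 0 2, s i x = 0 := fun i x hx =>
    h3 i x fun h => hx (image_mono sub h)
  have h5 : ∀ i, ∀ x ∈ (e i).symm '' closedBall 0 2, ∑ j, s j x = s i x := fun i x hx =>
    Finset.sum_eq_single i (fun j _ hj => h4 j x (disjoint_left.1 (hd i j hj.symm) hx))
      fun h => absurd (Finset.mem_univ i) h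
  refine ⟨fun x => ∑ i, s i x, fun c hc z hz => ?_, fun i z hz => ?_, fun x hx => ?_,
    fun ψ c hψ hc hb => ?_⟩
  · have : co k (fun x => ∑ i, s i x) c = fun z => ∑ i, co k (s i) c z := funext (co_sum k s c)
    rw [this]
    exact ContDiffAt.sum fun i _ => h1 i c hc z hz
  · rw [← h2 i z (hs i hz)]
    simp only [co, h5 i _ ⟨z, hz, rfl⟩]
  · have : ∀ᶠ y in 𝓝 x, ∀ i, s i y = 0 := eventually_all.2 fun i => by
      filter_upwards [(isCompact_piece (e i) (sub.trans (hs i))).isClosed.isOpen_compl.mem_nhds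
        (hx i)] with y hy using h3 i y hy
    filter_upwards [this] with y hy
    simp only [hy, Finset.sum_const_zero]
  · have p1 : ∀ x, ENNReal.ofReal (nrm n k (fun x => ∑ i, s i x) x * Real.exp (-ψ x)) ≤
        ∑ i, ENNReal.ofReal (nrm n k (s i) x * Real.exp (-ψ x)) := fun x => by
      by_cases hx : ∃ i, x ∈ (e i).symm '' closedBall 0 2
      · obtain ⟨i, hi⟩ := hx
        refine le_trans (le_of_eq ?_) (Finset.single_le_sum
          (f := fun i => ENNReal.ofReal (nrm n k (s i) x * Real.exp (-ψ x)))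
          (fun _ _ => zero_le) (Finset.mem_univ i))
        simp only [nrm, h5 i x hi]
      · have : ∀ i, s i x = 0 := fun i => h4 i x fun h => hx ⟨i, h⟩
        simp [nrm, this]
    have p2 : ∀ i, L2 n μ k ψ (s i) ≤
        ENNReal.ofReal (c * (volume (closedBall (0 : Cm n) 2)).toReal) := fun i => by
      rw [(v.l2 k ψ (s i) hψ (h1 i) (e i) (he i) _ measurableSet_closedBall (hs i)).2 (h4 i),
        ENNReal.ofReal_mul hc, ENNReal.ofReal_toReal measure_closedBall_lt_top.ne,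
        ← setLIntegral_const]
      refine setLIntegral_mono' measurableSet_closedBall fun z hz => ENNReal.ofReal_le_ofReal ?_
      rw [h2 i z (hs i hz)]
      exact hb i z hz
    calc L2 n μ k ψ (fun x => ∑ i, s i x)
        ≤ ∫⁻ x, ∑ i, ENNReal.ofReal (nrm n k (s i) x * Real.exp (-ψ x)) ∂μ := lintegral_mono p1
      _ = ∑ i, L2 n μ k ψ (s i) := lintegral_finsetSum _ fun i _ =>
          ENNReal.measurable_ofReal.comp ((b.nrm_cont k _ (h1 i)).mul
            (Real.continuous_exp.comp hψ.neg)).measurable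
      _ ≤ ∑ _i : Fin N, ENNReal.ofReal (c * (volume (closedBall (0 : Cm n) 2)).toReal) :=
          Finset.sum_le_sum fun i _ => p2 i
      _ = _ := by
          rw [Finset.sum_const, Finset.card_univ, Fintype.card_fin, nsmul_eq_mul,
            ENNReal.ofReal_mul (Nat.cast_nonneg N), ENNReal.ofReal_natCast]

omit [MeasurableSpace M] [BorelSpace M] in
theorem wt_sm (b : B1b n M) (k : ℤ) {ψ : M → ℝ} (hψ : Sm n ψ) {e : Chart n M} (he : Hc e)
    {z : Cm n} (hz : z ∈ e.target) : ContDiffAt ℝ ∞ (wt k ψ e) z :=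
  (contDiffAt_const.mul ((b.vd_sm e he z hz).log (b.vd_pos e he z hz).ne')).add (hψ e he z hz)

theorem pb_psd {S H : Matrix (Fin n) (Fin n) ℂ} (h : H.PosSemidef) : (pb S H).PosSemidef := by
  have e : S.transpose.conjTranspose = S.map (starRingEnd ℂ) := by
    ext j k; simp
  have := h.mul_mul_conjTranspose_same S.transpose
  rwa [e] at this

/-- the weight with the poles -/
theorem exists_wt (a : B1a n M) (b : B1b n M) (v : B3 n μ) {k : ℤ} {ψ : M → ℝ} (hψ : Sm n ψ)
    (hp : ∀ e : Chart n M, Hc e → ∀ z ∈ e.target, (th k ψ e z).PosSemidef)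
    {N : ℕ} {e : Fin N → Chart n M}
    (he : ∀ i, Hc (e i)) (hs : ∀ i, closedBall 0 2 ⊆ (e i).target)
    (hd : ∀ i j, i ≠ j → Disjoint ((e i).symm '' closedBall 0 2) ((e j).symm '' closedBall 0 2))
    {Λ : ℝ} (hΛ : ∀ i, ∀ z ∈ closedBall (0 : Cm n) 2,
      (th k ψ (e i) z - ((Λ + 1 : ℝ) : ℂ) • 1).PosSemidef)
    {τ : Cm n → ℝ} (t1 : ContDiff ℝ ∞ τ) (t2 : ∀ z, 1 ≤ ‖z‖ → τ z = 0) (t3 : ∀ z, τ z ≤ 0)
    (t4 : ∀ z, ‖z‖ ≤ 2 → (cHess τ z + (Λ : ℂ) • 1).PosSemidef) :
    ∃ φ : M → ℝ, Sm n φ ∧ (∀ x, φ x ≤ ψ x) ∧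
      (∀ e : Chart n M, Hc e → ∀ z ∈ e.target, (th k φ e z).PosSemidef) ∧
      (∀ i, ∀ z ∈ closedBall (0 : Cm n) 2, wt k φ (e i) z = wt k ψ (e i) z + τ z) ∧
      ∀ i, ∀ z ∈ closedBall (0 : Cm n) (3 / 2), (th k φ (e i) z - 1).PosSemidef := by
  obtain ⟨T, h1, h2, h3, -⟩ := glue a b v 0 he hs hd (σ := fun _ z => (τ z : ℂ))
    (fun _ z _ => contDiffAt_ofReal t1.contDiffAt)
    (fun _ z hz => by rw [t2 z (by linarith), Complex.ofReal_zero])
  have sub : closedBall (0 : Cm n) (3 / 2) ⊆ closedBall 0 2 := closedBall_subset_closedBall (by norm_num)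
  simp only [co_fun] at h2
  set φ : M → ℝ := fun x => ψ x + (T x).re with hφ
  have sm : Sm n φ := fun c hc z hz => by
    have h4 := h1 c hc z hz
    rw [show co 0 T c = fun y => T (c.symm y) from funext (co_fun T c)] at h4
    exact (hψ c hc z hz).add (Complex.reCLM.contDiff.contDiffAt.comp z h4)
  have w : ∀ i, ∀ z ∈ closedBall (0 : Cm n) 2, wt k φ (e i) z = wt k ψ (e i) z + τ z :=
    fun i z hz => by simp only [wt, hφ, h2 i z hz, Complex.ofReal_re, add_assoc]
  have p1 : ∀ i, ∀ z ∈ closedBall (0 : Cm n) (3 / 2), (th k φ (e i) z - 1).PosSemidef :=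
    fun i z hz => by
      have q1 : wt k φ (e i) =ᶠ[𝓝 z] fun y => wt k ψ (e i) y + τ y := by
        filter_upwards [isOpen_ball.mem_nhds (closedBall_subset_ball (by norm_num) hz :
          z ∈ ball (0 : Cm n) 2)] with y hy using w i y (ball_subset_closedBall hy)
      have q2 : th k φ (e i) z = th k ψ (e i) z + cHess τ z := by
        rw [th, cHess_congr q1, cHess_add ((wt_sm b k hψ (he i) (hs i (sub hz))).of_le two_le)
          (t1.contDiffAt.of_le two_le), th]
      have := (hΛ i z (sub hz)).add (t4 z (mem_closedBall_zero_iff.1 (sub hz)))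
      convert this using 1
      rw [q2, Complex.ofReal_add, add_smul, Complex.ofReal_one, one_smul]
      abel
  refine ⟨φ, sm, fun x => ?_, fun c hc z hz => ?_, w, p1⟩
  · by_cases hx : ∃ i, x ∈ (e i).symm '' closedBall 0 (3 / 2)
    · obtain ⟨i, z, hz, rfl⟩ := hx
      simp only [hφ, h2 i z (sub hz), Complex.ofReal_re]
      linarith [t3 z]
    · simp only [hφ, (h3 x fun i h => hx ⟨i, h⟩).self_of_nhds, Complex.zero_re, add_zero, le_refl]
  · by_cases hx : ∃ i, c.symm z ∈ (e i).symm '' closedBall 0 (3 / 2)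
    · obtain ⟨i, y, hy, hyz⟩ := hx
      have hyt := hs i (sub hy)
      have q1 := b.th_ch k φ sm c (e i) hc (he i) (c.symm z) (c.map_target hz)
        (hyz ▸ (e i).map_target hyt)
      rw [c.right_inv hz] at q1
      rw [q1, ← hyz, (e i).right_inv hyt]
      refine pb_psd ?_
      have := (p1 i y hy).add Matrix.PosSemidef.one
      rwa [sub_add_cancel] at this
    · have q1 := co_zero (k := 0) (c.map_target hz) (h3 _ fun i h => hx ⟨i, h⟩)
      rw [c.right_inv hz] at q1
      have q2 : wt k φ c =ᶠ[𝓝 z] wt k ψ c := by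
        filter_upwards [q1] with y hy
        rw [co_fun] at hy
        simp only [wt, hφ, hy, Complex.zero_re, add_zero]
      rw [th, cHess_congr q2]
      exact hp c hc z hz

end Vale.Agent.P253Z.HJ
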